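import Vale.Agent.P092.H259.Ad.Defs

/-!
P092, project RE-ADJ, block [AD-1]: the second cohomology of a real Lie algebra with nondegenerate
Killing form with values in the adjoint module vanishes (Casimir homotopy).
-/

set_option linter.all false

open Matrix

namespace Vale.Agent.P092.H381.Ad

open Vale.Agent.P092.H793.Re (Mat SLn RS Lie)
open Vale.Agent.P092.H259.Ad

variable {n : ℕ}

theorem adm_mulVec (c : Ten n) (x y : Fin n → ℝ) : adm c x *ᵥ y = br c x y := by
  funext l
  simp only [adm, br, mulVec, dotProduct, of_apply, Finset.sum_mul]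
  rw [Finset.sum_comm]

/-- the bracket as a bilinear map -/
def brL (c : Ten n) : (Fin n → ℝ) →ₗ[ℝ] (Fin n → ℝ) →ₗ[ℝ] (Fin n → ℝ) :=
  LinearMap.mk₂ ℝ (br c)
    (fun x x' y => by
      funext l; simp only [br, Pi.add_apply, ← Finset.sum_add_distrib]
      exact Finset.sum_congr rfl fun i _ => Finset.sum_congr rfl fun j _ => by ring)
    (fun a x y => by
      funext l; simp only [br, Pi.smul_apply, smul_eq_mul, Finset.mul_sum]
      exact Finset.sum_congr rfl fun i _ => Finset.sum_congr rfl fun j _ => by ring)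
    (fun x y y' => by
      funext l; simp only [br, Pi.add_apply, ← Finset.sum_add_distrib]
      exact Finset.sum_congr rfl fun i _ => Finset.sum_congr rfl fun j _ => by ring)
    (fun a x y => by
      funext l; simp only [br, Pi.smul_apply, smul_eq_mul, Finset.mul_sum]
      exact Finset.sum_congr rfl fun i _ => Finset.sum_congr rfl fun j _ => by ring)

theorem brL_apply (c : Ten n) (x y : Fin n → ℝ) : brL c x y = br c x y := rfl

/-- `ad` as a linear map -/
theorem adm_add (c : Ten n) (x y : Fin n → ℝ) : adm c (x + y) = adm c x + adm c y := by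
  ext l j
  simp only [adm, of_apply, Pi.add_apply, Matrix.add_apply, ← Finset.sum_add_distrib]
  exact Finset.sum_congr rfl fun i _ => by ring

theorem adm_smul (c : Ten n) (a : ℝ) (x : Fin n → ℝ) : adm c (a • x) = a • adm c x := by
  ext l j
  simp only [adm, of_apply, Pi.smul_apply, Matrix.smul_apply, smul_eq_mul, Finset.mul_sum]
  exact Finset.sum_congr rfl fun i _ => by ring

def admL (c : Ten n) : (Fin n → ℝ) →ₗ[ℝ] Mat n where
  toFun := adm c
  map_add' := adm_add c
  map_smul' := adm_smul c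

theorem ext_mulVec {A B : Mat n} (h : ∀ x : Fin n → ℝ, A *ᵥ x = B *ᵥ x) : A = B := by
  ext i j
  have := congrFun (h (Pi.single j 1)) i
  simpa [mulVec_single] using this

theorem adm_lie {c : Ten n} (hc : IsLie c) (x y : Fin n → ℝ) :
    adm c (br c x y) = adm c x * adm c y - adm c y * adm c x := by
  refine ext_mulVec fun z => ?_
  rw [sub_mulVec, ← mulVec_mulVec, ← mulVec_mulVec, adm_mulVec, adm_mulVec, adm_mulVec, adm_mulVec,
    adm_mulVec]
  rw [hc.jac x y z]; abel

theorem sum_single (x : Fin n → ℝ) : ∑ i, x i • (Pi.single i (1 : ℝ) : Fin n → ℝ) = x := by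
  funext j
  simp [Finset.sum_apply, Pi.single_apply]

theorem kil_apply (c : Ten n) (x y : Fin n → ℝ) :
    x ⬝ᵥ (kil c *ᵥ y) = (adm c x * adm c y).trace := by
  have hx : adm c x = ∑ i, x i • adm c (Pi.single i 1) := by
    have h := congrArg (admL c) (sum_single x)
    rw [map_sum] at h
    rw [← show (admL c) x = adm c x from rfl, ← h]
    exact Finset.sum_congr rfl fun i _ => by rw [map_smul]; rfl
  have hy : adm c y = ∑ i, y i • adm c (Pi.single i 1) := by
    have h := congrArg (admL c) (sum_single y)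
    rw [map_sum] at h
    rw [← show (admL c) y = adm c y from rfl, ← h]
    exact Finset.sum_congr rfl fun i _ => by rw [map_smul]; rfl
  rw [hx, hy, Finset.sum_mul, trace_sum]
  simp only [dotProduct, mulVec, kil, of_apply, Finset.mul_sum, trace_sum, smul_mul_assoc,
    mul_smul_comm, trace_smul, smul_eq_mul]
  exact Finset.sum_congr rfl fun i _ => Finset.sum_congr rfl fun j _ => by ring

/-- invariance -/
theorem kil_inv {c : Ten n} (hc : IsLie c) (x : Fin n → ℝ) :
    (adm c x)ᵀ * kil c + kil c * adm c x = 0 := by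
  have key : ∀ y z : Fin n → ℝ, y ⬝ᵥ (((adm c x)ᵀ * kil c + kil c * adm c x) *ᵥ z) = 0 := by
    intro y z
    rw [add_mulVec, dotProduct_add, ← mulVec_mulVec, ← mulVec_mulVec, dotProduct_mulVec,
      vecMul_transpose, adm_mulVec, adm_mulVec, kil_apply, kil_apply, adm_lie hc, adm_lie hc]
    rw [sub_mul, mul_sub, trace_sub, trace_sub, ← mul_assoc, ← mul_assoc,
      trace_mul_comm (adm c x * adm c y) (adm c z), ← mul_assoc]
    rw [trace_mul_comm (adm c z * adm c x) (adm c y), ← mul_assoc]
    ring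
  ext i j
  have := key (Pi.single i 1) (Pi.single j 1)
  simpa [mulVec_single, single_dotProduct] using this

/-- the contraction of a bilinear map with a matrix -/
def ctr {U : Type*} [AddCommGroup U] [Module ℝ U] (G : Mat n)
    (F : (Fin n → ℝ) →ₗ[ℝ] (Fin n → ℝ) →ₗ[ℝ] U) : U :=
  ∑ i, ∑ k, G k i • F (Pi.single i 1) (Pi.single k 1)

theorem ctr_skew {U : Type*} [AddCommGroup U] [Module ℝ U] {G D : Mat n}
    (h : G * Dᵀ + D * G = 0) (F : (Fin n → ℝ) →ₗ[ℝ] (Fin n → ℝ) →ₗ[ℝ] U) :
    ∑ i, ∑ k, G k i • F (D *ᵥ Pi.single i 1) (Pi.single k 1) +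
      ∑ i, ∑ k, G k i • F (Pi.single i 1) (D *ᵥ Pi.single k 1) = 0 := by
  have hD : ∀ i, D *ᵥ (Pi.single i 1 : Fin n → ℝ) = ∑ l, D l i • (Pi.single l (1 : ℝ) : Fin n → ℝ) := by
    intro i
    rw [← sum_single (D *ᵥ (Pi.single i 1 : Fin n → ℝ))]
    exact Finset.sum_congr rfl fun l _ => by simp [mulVec_single]
  have h1 : ∑ i, ∑ k, G k i • F (D *ᵥ Pi.single i 1) (Pi.single k 1) =
      ∑ l, ∑ k, (G * Dᵀ) k l • F (Pi.single l 1) (Pi.single k 1) := by
    simp only [hD, map_sum, LinearMap.sum_apply, map_smul, LinearMap.smul_apply, Finset.smul_sum,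
      smul_smul, mul_apply, transpose_apply, Finset.sum_smul]
    rw [Finset.sum_comm]
    rw [Finset.sum_comm (s := Finset.univ) (t := Finset.univ)
      (f := fun l k => ∑ i, (G k i * D l i) • F (Pi.single l 1) (Pi.single k 1))]
    refine Finset.sum_congr rfl fun k _ => ?_
    rw [Finset.sum_comm]
  have h2 : ∑ i, ∑ k, G k i • F (Pi.single i 1) (D *ᵥ Pi.single k 1) =
      ∑ i, ∑ l, (D * G) l i • F (Pi.single i 1) (Pi.single l 1) := by
    simp only [hD, map_sum, map_smul, Finset.smul_sum,
      smul_smul, mul_apply, Finset.sum_smul]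
    refine Finset.sum_congr rfl fun i _ => ?_
    rw [Finset.sum_comm]
    exact Finset.sum_congr rfl fun l _ => Finset.sum_congr rfl fun k _ => by rw [mul_comm]
  rw [h1, h2, ← Finset.sum_add_distrib]
  refine Finset.sum_eq_zero fun i _ => ?_
  rw [← Finset.sum_add_distrib]
  refine Finset.sum_eq_zero fun k _ => ?_
  rw [← add_smul, ← Matrix.add_apply, h, Matrix.zero_apply, zero_smul]

theorem inv_skew {c : Ten n} (hc : IsLie c) (hN : Nd c) (x : Fin n → ℝ) :
    (kil c)⁻¹ * (adm c x)ᵀ + adm c x * (kil c)⁻¹ = 0 := by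
  have hu : IsUnit (kil c).det := isUnit_iff_ne_zero.2 hN
  have h := kil_inv hc x
  have h1 : (kil c)⁻¹ * ((adm c x)ᵀ * kil c + kil c * adm c x) * (kil c)⁻¹ =
      (kil c)⁻¹ * (adm c x)ᵀ + adm c x * (kil c)⁻¹ := by
    rw [mul_add, add_mul, ← mul_assoc, mul_assoc ((kil c)⁻¹ * (adm c x)ᵀ), mul_nonsing_inv _ hu,
      mul_one, ← mul_assoc (kil c)⁻¹ (kil c), nonsing_inv_mul _ hu, one_mul]
  rw [← h1, h, mul_zero, zero_mul]

/-- the Casimir element acts as the identity on the adjoint module -/
theorem casimir {c : Ten n} (hc : IsLie c) (hN : Nd c) (x : Fin n → ℝ) :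
    ∑ i, ∑ k, (kil c)⁻¹ k i • br c (Pi.single i 1) (br c (Pi.single k 1) x) = x := by
  have hu : IsUnit (kil c).det := isUnit_iff_ne_zero.2 hN
  set M : Mat n := ∑ i, ∑ k, (kil c)⁻¹ k i • (adm c (Pi.single i 1) * adm c (Pi.single k 1)) with hM
  have hMx : ∀ z, M *ᵥ z = ∑ i, ∑ k, (kil c)⁻¹ k i •
      br c (Pi.single i 1) (br c (Pi.single k 1) z) := by
    intro z
    simp only [hM, sum_mulVec, smul_mulVec, ← mulVec_mulVec, adm_mulVec]
  rw [← hMx]
  have hA : ∀ y z : Fin n → ℝ, y ⬝ᵥ ((kil c * M) *ᵥ z) = y ⬝ᵥ (kil c *ᵥ z) := by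
    intro y z
    rw [← mulVec_mulVec, hMx, mulVec_sum, dotProduct_sum, kil_apply]
    have hterm : ∀ i k : Fin n, y ⬝ᵥ (kil c *ᵥ
        br c (Pi.single i 1) (br c (Pi.single k 1) z)) =
        (kil c * adm c y * adm c z) i k := by
      intro i k
      have e1 : ∀ a b : Fin n → ℝ, y ⬝ᵥ (kil c *ᵥ br c a b) = - (br c a y ⬝ᵥ (kil c *ᵥ b)) := by
        intro a b
        have h := congrArg (fun A : Mat n => y ⬝ᵥ (A *ᵥ b)) (kil_inv hc a)
        simp only [add_mulVec, dotProduct_add, zero_mulVec, dotProduct_zero] at h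
        rw [← mulVec_mulVec, ← mulVec_mulVec, dotProduct_mulVec y (adm c a)ᵀ,
          vecMul_transpose, adm_mulVec, adm_mulVec] at h
        linarith
      have e2 : ∀ a b : Fin n → ℝ, br c y a ⬝ᵥ (kil c *ᵥ b) = - (a ⬝ᵥ (kil c *ᵥ br c y b)) := by
        intro a b
        have h := congrArg (fun A : Mat n => a ⬝ᵥ (A *ᵥ b)) (kil_inv hc y)
        simp only [add_mulVec, dotProduct_add, zero_mulVec, dotProduct_zero] at h
        rw [← mulVec_mulVec, ← mulVec_mulVec, dotProduct_mulVec a (adm c y)ᵀ,
          vecMul_transpose, adm_mulVec, adm_mulVec] at h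
        linarith
      rw [e1, hc.anti (Pi.single i 1) y, neg_dotProduct, neg_neg, e2,
        hc.anti (Pi.single k 1) z]
      have e3 : br c y (-br c z (Pi.single k 1)) = - br c y (br c z (Pi.single k 1)) := by
        rw [← brL_apply, map_neg]; rfl
      rw [e3, mulVec_neg, dotProduct_neg, neg_neg, ← adm_mulVec c z, ← adm_mulVec c y,
        mulVec_mulVec, mulVec_mulVec]
      simp [mulVec_single, single_dotProduct]
    simp only [mulVec_sum, dotProduct_sum, mulVec_smul, dotProduct_smul, hterm, smul_eq_mul]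
    have h2 : (adm c y * adm c z).trace = ((kil c)⁻¹ * (kil c * adm c y * adm c z)).trace := by
      rw [mul_assoc, ← mul_assoc (kil c)⁻¹, nonsing_inv_mul _ hu, one_mul]
    rw [h2, Finset.sum_comm]
    simp only [trace, diag, mul_apply (M := (kil c)⁻¹)]
  have hB : kil c * M = kil c := by
    ext i j
    have := hA (Pi.single i 1) (Pi.single j 1)
    simpa [mulVec_single, single_dotProduct] using this
  have hC : M = 1 := by
    have := congrArg ((kil c)⁻¹ * ·) hB
    simpa [← mul_assoc, nonsing_inv_mul _ hu] using this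
  rw [hC, one_mulVec]

/-- **[AD-1]** the second cohomology of `c` with values in the adjoint module vanishes -/
theorem h2B : H2B := by
  intro n c hc hN w hw hwc
  set G : Mat n := (kil c)⁻¹ with hG
  set A : Mat n := ∑ i, ∑ k, G k i • (adm c (Pi.single i 1) * adm w (Pi.single k 1)) with hA
  have hAx : ∀ z, A *ᵥ z = ∑ i, ∑ k, G k i •
      br c (Pi.single i 1) (br w (Pi.single k 1) z) := by
    intro z
    simp only [hA, sum_mulVec, smul_mulVec, ← mulVec_mulVec, adm_mulVec]
  refine ⟨A, fun y z => ?_⟩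
  -- invariance, applied to `F (a, b) = [a, w (b, z)]`
  have hinv : ∀ y z : Fin n → ℝ,
      ∑ i, ∑ k, G k i • br c (br c y (Pi.single i 1)) (br w (Pi.single k 1) z) +
      ∑ i, ∑ k, G k i • br c (Pi.single i 1) (br w (br c y (Pi.single k 1)) z) = 0 := by
    intro y z
    have h := ctr_skew (inv_skew hc hN y)
      ((brL c).compl₂ ((brL w).flip z))
    simpa only [LinearMap.compl₂_apply, LinearMap.flip_apply, brL_apply, adm_mulVec] using h
  have h1 := hinv y z
  have h2 := hinv z y
  have e1 : br c (A *ᵥ y) z = - br c z (A *ᵥ y) := hc.anti _ _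
  have hbr : ∀ y z : Fin n → ℝ, br c y (A *ᵥ z) = ∑ i, ∑ k, G k i •
      (br c (br c y (Pi.single i 1)) (br w (Pi.single k 1) z) +
        br c (Pi.single i 1) (br c y (br w (Pi.single k 1) z))) := by
    intro y z
    rw [hAx, ← brL_apply, map_sum]
    refine Finset.sum_congr rfl fun i _ => ?_
    rw [map_sum]
    refine Finset.sum_congr rfl fun k _ => ?_
    rw [map_smul, brL_apply, hc.jac y]
  have hcas := casimir hc hN (br w y z)
  rw [e1, hbr, hbr, hAx]
  -- everything under the sum
  have hsum : ∀ i k : Fin n,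
      br c (Pi.single i 1) (br c (Pi.single k 1) (br w y z)) =
      br c (Pi.single i 1) (br c y (br w (Pi.single k 1) z))
      - br c (Pi.single i 1) (br c z (br w (Pi.single k 1) y))
      - br c (Pi.single i 1) (br w (Pi.single k 1) (br c y z))
      - br c (Pi.single i 1) (br w (br c y (Pi.single k 1)) z)
      + br c (Pi.single i 1) (br w (br c z (Pi.single k 1)) y) := by
    intro i k
    simp only [← brL_apply c (Pi.single i 1)]
    rw [← map_sub, ← map_sub, ← map_sub, ← map_add]
    congr 1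
    have h := hwc (Pi.single k 1) y z
    have a1 : br c (br w (Pi.single k 1) y) z = - br c z (br w (Pi.single k 1) y) := hc.anti _ _
    have a2 : br w (br c (Pi.single k 1) y) z = - br w (br c y (Pi.single k 1)) z := by
      rw [hc.anti (Pi.single k 1) y, ← brL_apply, map_neg]; rfl
    have a3 : br w y (br c (Pi.single k 1) z) = br w (br c z (Pi.single k 1)) y := by
      rw [hc.anti (Pi.single k 1) z, ← brL_apply, map_neg, brL_apply, hw y, neg_neg]
    rw [a1, a2, a3] at h
    have h' : br c (Pi.single k 1) (br w y z) =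
      (-br c z (br w (Pi.single k 1) y) + -br w (br c y (Pi.single k 1)) z +
        br c y (br w (Pi.single k 1) z) + br w (br c z (Pi.single k 1)) y) -
        br w (Pi.single k 1) (br c y z) := by rw [← h]; abel
    rw [h']; abel
  simp only [hsum, smul_add, smul_sub, Finset.sum_add_distrib, Finset.sum_sub_distrib] at hcas ⊢
  rw [← hcas]
  linear_combination h2 - h1

end Vale.Agent.P092.H381.Ad
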