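import Vale.Agent.P092.H381.Ad.H2
import Mathlib.Analysis.Calculus.ContDiff.RCLike
import Mathlib.Analysis.Calculus.ContDiff.Basic
import Mathlib.Analysis.Calculus.ContDiff.Operations
import Mathlib.Analysis.Calculus.InverseFunctionTheorem.FDeriv
import Mathlib.Analysis.Calculus.Implicit
import Mathlib.Analysis.Calculus.Deriv.Pow
import Mathlib.Analysis.Calculus.Deriv.Prod
import Mathlib.Analysis.Calculus.Deriv.Pi
import Mathlib.Analysis.Calculus.LineDeriv.Basic
import Mathlib.Analysis.Normed.Module.FiniteDimension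

/-!
P092, project RE-ADJ, block [AD-2]: brackets with nondegenerate Killing form are rigid.
-/

set_option linter.all false

open Matrix Filter Topology

namespace Vale.Agent.P092.H381.Ad

open Vale.Agent.P092.H793.Re (Mat SLn RS Lie)
open Vale.Agent.P092.H259.Ad

variable {n : ℕ}

theorem br_addT (c d : Ten n) (x y : Fin n → ℝ) : br (c + d) x y = br c x y + br d x y := by
  funext l; simp only [br, Pi.add_apply, ← Finset.sum_add_distrib]
  exact Finset.sum_congr rfl fun i _ => Finset.sum_congr rfl fun j _ => by ring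

theorem br_smulT (a : ℝ) (c : Ten n) (x y : Fin n → ℝ) : br (a • c) x y = a • br c x y := by
  funext l; simp only [br, Pi.smul_apply, smul_eq_mul, Finset.mul_sum]
  exact Finset.sum_congr rfl fun i _ => Finset.sum_congr rfl fun j _ => by ring

theorem br_addL (c : Ten n) (x x' y : Fin n → ℝ) : br c (x + x') y = br c x y + br c x' y := by
  rw [← brL_apply, map_add]; rfl

theorem br_addR (c : Ten n) (x y y' : Fin n → ℝ) : br c x (y + y') = br c x y + br c x y' := by
  rw [← brL_apply, map_add]; rfl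

theorem br_smulL (c : Ten n) (a : ℝ) (x y : Fin n → ℝ) : br c (a • x) y = a • br c x y := by
  rw [← brL_apply, map_smul]; rfl

theorem br_smulR (c : Ten n) (a : ℝ) (x y : Fin n → ℝ) : br c x (a • y) = a • br c x y := by
  rw [← brL_apply, map_smul]; rfl

theorem br_negR (c : Ten n) (x y : Fin n → ℝ) : br c x (-y) = - br c x y := by
  rw [← brL_apply, map_neg]; rfl

theorem br_negL (c : Ten n) (x y : Fin n → ℝ) : br c (-x) y = - br c x y := by
  rw [← brL_apply, map_neg]; rfl

theorem br_single (c : Ten n) (i j l : Fin n) :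
    br c (Pi.single i 1) (Pi.single j 1) l = c i j l := by
  simp [br, Pi.single_apply, Finset.sum_ite_eq, mul_ite]

theorem ten_ext {c c' : Ten n} (h : ∀ x y, br c x y = br c' x y) : c = c' := by
  funext i j l
  rw [← br_single c, ← br_single c', h]

/-- a bilinear map is determined by its values on the basis -/
theorem bil_ext {U : Type*} [AddCommGroup U] [Module ℝ U]
    {F F' : (Fin n → ℝ) →ₗ[ℝ] (Fin n → ℝ) →ₗ[ℝ] U}
    (h : ∀ i j, F (Pi.single i 1) (Pi.single j 1) = F' (Pi.single i 1) (Pi.single j 1)) : F = F' := by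
  refine LinearMap.pi_ext' fun i => LinearMap.ext_ring ?_
  refine LinearMap.pi_ext' fun j => LinearMap.ext_ring ?_
  exact h i j

/-- the space of matrices, as a normed space -/
abbrev MM (n : ℕ) := Fin n → Fin n → ℝ

/-- the infinitesimal action -/
def dL (c : Ten n) : MM n →ₗ[ℝ] Ten n where
  toFun A := fun i j l => ∑ a, A a i * c a j l + ∑ b, A b j * c i b l - ∑ m, A l m * c i j m
  map_add' A B := by
    funext i j l
    simp only [Pi.add_apply, add_mul, Finset.sum_add_distrib]; ring
  map_smul' a A := by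
    funext i j l
    simp only [Pi.smul_apply, smul_eq_mul, RingHom.id_apply, mul_assoc, ← Finset.mul_sum]; ring

theorem br_dL (c : Ten n) (A : MM n) (x y : Fin n → ℝ) :
    br (dL c A) x y = br c (of A *ᵥ x) y + br c x (of A *ᵥ y) - of A *ᵥ br c x y := by
  set M : (Fin n → ℝ) →ₗ[ℝ] (Fin n → ℝ) := (of A).mulVecLin with hM
  have h : brL (dL c A) = (brL c).comp M + (brL c).compl₂ M - (brL c).compr₂ M := by
    refine bil_ext fun i j => ?_
    simp only [brL_apply, LinearMap.sub_apply, LinearMap.add_apply, LinearMap.comp_apply,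
      LinearMap.compl₂_apply, LinearMap.compr₂_apply, hM, mulVecLin_apply]
    funext l
    rw [br_single]
    simp [dL, br, mulVec, dotProduct, Pi.single_apply, mul_comm]
  have h2 := congrArg (fun F : (Fin n → ℝ) →ₗ[ℝ] (Fin n → ℝ) →ₗ[ℝ] (Fin n → ℝ) => F x y) h
  simpa only [brL_apply, LinearMap.sub_apply, LinearMap.add_apply, LinearMap.comp_apply,
      LinearMap.compl₂_apply, LinearMap.compr₂_apply, hM, mulVecLin_apply] using h2

/-- a projection along a subspace -/
theorem exists_proj {E F : Type*} [AddCommGroup E] [Module ℝ E] [AddCommGroup F] [Module ℝ F]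
    (D : F →ₗ[ℝ] E) : ∃ P : E →ₗ[ℝ] E, (∀ t, ∃ A, t - P t = D A) ∧ ∀ A, P (D A) = 0 := by
  obtain ⟨s, hs⟩ := (LinearMap.range D).mkQ.exists_rightInverse_of_surjective
    (LinearMap.range_eq_top.2 (Submodule.mkQ_surjective _))
  refine ⟨s.comp (LinearMap.range D).mkQ, fun t => ?_, fun A => ?_⟩
  · have h : t - s ((LinearMap.range D).mkQ t) ∈ LinearMap.range D := by
      rw [← Submodule.Quotient.mk_eq_zero, Submodule.Quotient.mk_sub, sub_eq_zero]
      exact (LinearMap.congr_fun hs ((LinearMap.range D).mkQ t)).symm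
    obtain ⟨A, hA⟩ := h
    exact ⟨A, hA.symm⟩
  · have h : (LinearMap.range D).mkQ (D A) = 0 :=
      (Submodule.Quotient.mk_eq_zero _).2 (LinearMap.mem_range_self D A)
    rw [LinearMap.comp_apply, h, map_zero]

/-- the linear part of the equations of a Lie bracket at `c`, with the projection -/
def eqL (c : Ten n) (P : Ten n →ₗ[ℝ] Ten n) :
    Ten n →ₗ[ℝ] (Fin n → Fin n → Fin n → ℝ) × (Fin n → Fin n → Fin n → Fin n → ℝ) ×
      (Fin n → Fin n → Fin n → ℝ) where
  toFun w := (fun i j l => w i j l + w j i l, fun i j k =>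
    (br c (Pi.single i 1) (br w (Pi.single j 1) (Pi.single k 1)) +
      br w (Pi.single i 1) (br c (Pi.single j 1) (Pi.single k 1))) -
    (br c (br w (Pi.single i 1) (Pi.single j 1)) (Pi.single k 1) +
      br w (br c (Pi.single i 1) (Pi.single j 1)) (Pi.single k 1) +
      br c (Pi.single j 1) (br w (Pi.single i 1) (Pi.single k 1)) +
      br w (Pi.single j 1) (br c (Pi.single i 1) (Pi.single k 1))), w - P w)
  map_add' w w' := by
    refine Prod.ext ?_ (Prod.ext ?_ ?_)
    · funext i j l; simp; ring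
    · funext i j k l
      simp only [br_addT, br_addR, br_addL, Prod.fst_add, Prod.snd_add, Pi.add_apply, Pi.sub_apply]
      ring
    · simp; abel
  map_smul' a w := by
    refine Prod.ext ?_ (Prod.ext ?_ ?_)
    · funext i j l; simp; ring
    · funext i j k l
      simp only [br_smulT, br_smulR, br_smulL, Prod.smul_fst, Prod.smul_snd, Pi.smul_apply,
        Pi.add_apply, Pi.sub_apply, smul_eq_mul, RingHom.id_apply]
      ring
    · simp [smul_sub]

/-- the quadratic part -/
def eqQ (w : Ten n) :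
    (Fin n → Fin n → Fin n → ℝ) × (Fin n → Fin n → Fin n → Fin n → ℝ) ×
      (Fin n → Fin n → Fin n → ℝ) := (0, fun i j k =>
    br w (Pi.single i 1) (br w (Pi.single j 1) (Pi.single k 1)) -
    (br w (br w (Pi.single i 1) (Pi.single j 1)) (Pi.single k 1) +
      br w (Pi.single j 1) (br w (Pi.single i 1) (Pi.single k 1))), 0)

theorem eqQ_smul (a : ℝ) (w : Ten n) : eqQ (a • w) = a ^ 2 • eqQ w := by
  refine Prod.ext (by simp [eqQ]) (Prod.ext ?_ (by simp [eqQ]))
  funext i j k l
  simp only [eqQ, br_smulT, br_smulR, br_smulL, Prod.smul_fst, Prod.smul_snd, Pi.smul_apply,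
        Pi.add_apply, Pi.sub_apply, smul_eq_mul]
  ring

theorem eqQ_diff : Differentiable ℝ (eqQ : Ten n → _) := by
  unfold eqQ br
  fun_prop

theorem eqQ_deriv : HasFDerivAt (eqQ : Ten n → _) (0 : Ten n →L[ℝ] _) 0 := by
  have h := (eqQ_diff (n := n) 0).hasFDerivAt
  have h0 : fderiv ℝ (eqQ : Ten n → _) 0 = 0 := by
    ext1 v
    have h1 := (h.hasLineDerivAt v : HasLineDerivAt ℝ _ _ _ _)
    have h1' : HasDerivAt (fun t : ℝ => eqQ (0 + t • v)) (fderiv ℝ eqQ 0 v) 0 := h1
    have h2 : HasDerivAt (fun t : ℝ => eqQ (0 + t • v)) 0 0 := by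
      have : (fun t : ℝ => eqQ (0 + t • v)) = fun t => t ^ 2 • eqQ v := by
        funext t; rw [zero_add, eqQ_smul]
      rw [this]
      simpa using (hasDerivAt_pow 2 (0 : ℝ)).smul_const (eqQ v)
    rw [h1'.unique h2]; rfl
  rwa [h0] at h

theorem eqN_eq_zero {c w : Ten n} {P : Ten n →ₗ[ℝ] Ten n} (hc : IsLie c) (hcw : IsLie (c + w))
    (hw : P w = w) : eqL c P w + eqQ w = 0 := by
  refine Prod.ext ?_ (Prod.ext ?_ ?_)
  · funext i j l
    have h1 := congrFun (hc.anti (Pi.single i 1) (Pi.single j 1)) l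
    have h2 := congrFun (hcw.anti (Pi.single i 1) (Pi.single j 1)) l
    simp only [br_addT, Pi.neg_apply, Pi.add_apply, br_single] at h1 h2
    simp [eqL, eqQ]; linarith
  · funext i j k l
    have h1 := congrFun (hc.jac (Pi.single i 1) (Pi.single j 1) (Pi.single k 1)) l
    have h2 := congrFun (hcw.jac (Pi.single i 1) (Pi.single j 1) (Pi.single k 1)) l
    simp only [br_addT, br_addL, br_addR, Pi.add_apply] at h1 h2
    simp only [eqL, eqQ, LinearMap.coe_mk, AddHom.coe_mk, Prod.fst_add, Prod.snd_add, Pi.add_apply,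
      Pi.sub_apply, Prod.snd_zero, Prod.fst_zero, Pi.zero_apply]
    linarith
  · simp [eqL, eqQ, hw]

theorem lin_zero {f : (Fin n → ℝ) → (Fin n → ℝ)} (hadd : ∀ x x', f (x + x') = f x + f x')
    (hsmul : ∀ (a : ℝ) x, f (a • x) = a • f x) (h : ∀ i, f (Pi.single i 1) = 0) (x : Fin n → ℝ) :
    f x = 0 := by
  let F : (Fin n → ℝ) →ₗ[ℝ] (Fin n → ℝ) := ⟨⟨f, hadd⟩, hsmul⟩
  have hF : F = 0 := LinearMap.pi_ext' fun i => LinearMap.ext_ring (h i)
  exact LinearMap.congr_fun hF x

/-- an identity between trilinear expressions in two brackets follows from the basis -/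
theorem tri_zero (E : (Fin n → ℝ) → (Fin n → ℝ) → (Fin n → ℝ) → (Fin n → ℝ))
    (a1 : ∀ x x' y z, E (x + x') y z = E x y z + E x' y z)
    (a2 : ∀ x y y' z, E x (y + y') z = E x y z + E x y' z)
    (a3 : ∀ x y z z', E x y (z + z') = E x y z + E x y z')
    (s1 : ∀ (a : ℝ) x y z, E (a • x) y z = a • E x y z)
    (s2 : ∀ (a : ℝ) x y z, E x (a • y) z = a • E x y z)
    (s3 : ∀ (a : ℝ) x y z, E x y (a • z) = a • E x y z)
    (h : ∀ i j k, E (Pi.single i 1) (Pi.single j 1) (Pi.single k 1) = 0) (x y z : Fin n → ℝ) :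
    E x y z = 0 := by
  refine lin_zero (f := fun x => E x y z) (fun x x' => a1 x x' y z) (fun a x => s1 a x y z) ?_ x
  intro i
  refine lin_zero (f := fun y => E (Pi.single i 1) y z) (fun x x' => a2 _ x x' z)
    (fun a x => s2 a _ x z) ?_ y
  intro j
  exact lin_zero (f := fun z => E (Pi.single i 1) (Pi.single j 1) z) (fun x x' => a3 _ _ x x')
    (fun a x => s3 a _ _ x) (h i j) z

theorem eqL_inj {c : Ten n} (hc : IsLie c) (hN : Nd c) {P : Ten n →ₗ[ℝ] Ten n}
    (hP : ∀ A, P (dL c A) = 0) {w : Ten n} (hw : eqL c P w = 0) : w = 0 := by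
  have h1 : ∀ i j l, w i j l + w j i l = 0 := fun i j l =>
    congrFun (congrFun (congrFun (congrArg Prod.fst hw) i) j) l
  have h2 := fun i j k => congrFun (congrFun (congrFun (congrArg (fun p => p.2.1) hw) i) j) k
  have h3 : w - P w = 0 := congrArg (fun p => p.2.2) hw
  have hanti : ∀ x y, br w x y = - br w y x := by
    have h : brL w = - (brL w).flip := by
      refine bil_ext fun i j => ?_
      funext l
      have := h1 i j l
      simp only [LinearMap.neg_apply, LinearMap.flip_apply, brL_apply, Pi.neg_apply, br_single]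
      linarith
    intro x y
    exact congrArg (fun F : (Fin n → ℝ) →ₗ[ℝ] (Fin n → ℝ) →ₗ[ℝ] (Fin n → ℝ) => F x y) h
  have hcoc : ∀ x y z, br c x (br w y z) + br w x (br c y z) =
      br c (br w x y) z + br w (br c x y) z + br c y (br w x z) + br w y (br c x z) := by
    intro x y z
    rw [← sub_eq_zero]
    refine tri_zero (fun x y z => br c x (br w y z) + br w x (br c y z) -
      (br c (br w x y) z + br w (br c x y) z + br c y (br w x z) + br w y (br c x z)))
      ?_ ?_ ?_ ?_ ?_ ?_ h2 x y z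
    · intro x x' y z; simp only [br_addL, br_addR]; abel
    · intro x x' y z; simp only [br_addL, br_addR]; abel
    · intro x x' y z; simp only [br_addL, br_addR]; abel
    · intro a x y z; simp only [br_smulL, br_smulR, smul_sub, smul_add]
    · intro a x y z; simp only [br_smulL, br_smulR, smul_sub, smul_add]
    · intro a x y z; simp only [br_smulL, br_smulR, smul_sub, smul_add]
  obtain ⟨A, hA⟩ := h2B c hc hN w hanti hcoc
  let A' : MM n := fun i j => A i j
  have hA' : (of A' : Mat n) = A := rfl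
  have hwA : w = dL c A' := ten_ext fun x y => by rw [hA, br_dL, hA']
  rw [sub_eq_zero] at h3
  rw [h3, hwA, hP]

/-- the bracket `c` is isolated in a transversal slice -/
theorem slice {c : Ten n} (hc : IsLie c) (hN : Nd c) {P : Ten n →ₗ[ℝ] Ten n}
    (hP : ∀ A, P (dL c A) = 0) :
    ∀ᶠ w : Ten n in 𝓝 0, IsLie (c + w) → P w = w → w = 0 := by
  set L := (eqL c P).toContinuousLinearMap with hL
  have hd : HasFDerivAt (fun w : Ten n => eqL c P w + eqQ w) L 0 := by
    have h := (L.hasFDerivAt (x := (0 : Ten n))).add (eqQ_deriv (n := n))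
    rw [add_zero] at h
    exact h
  have hinj : LinearMap.ker (eqL c P) = ⊥ :=
    LinearMap.ker_eq_bot'.2 fun w hw => eqL_inj hc hN hP hw
  obtain ⟨K, _, hK⟩ := (eqL c P).exists_antilipschitzWith hinj
  have hb : ∃ C, AntilipschitzWith C L := ⟨K, hK⟩
  have h := hd.eventually_ne (c := 0) hb
  rw [eventually_nhdsWithin_iff] at h
  filter_upwards [h] with w hw h1 h2
  by_contra hne
  exact hw hne (eqN_eq_zero hc h1 h2)

/-- the equation `(1 + A) (c + w) (x, y) = c' ((1 + A) x, (1 + A) y)` in coordinates -/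
def Ph (c : Ten n) (P : Ten n →ₗ[ℝ] Ten n) (p : Ten n × (MM n × Ten n)) : Ten n := fun i j l =>
  ∑ m, ((if l = m then 1 else 0) + p.2.1 l m) * (c i j m + P p.2.2 i j m) -
    ∑ a, ∑ b, p.1 a b l * ((if a = i then 1 else 0) + p.2.1 a i) *
      ((if b = j then 1 else 0) + p.2.1 b j)

def FF (c : Ten n) (P : Ten n →ₗ[ℝ] Ten n) (p : Ten n × (MM n × Ten n)) : Ten n × Ten n :=
  (p.1, Ph c P p)

theorem FF_contDiff (c : Ten n) (P : Ten n →ₗ[ℝ] Ten n) : ContDiff ℝ 1 (FF c P) := by
  have hP : ContDiff ℝ 1 (fun w : Ten n => P w) := P.toContinuousLinearMap.contDiff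
  have hP' : ContDiff ℝ 1 (fun p : Ten n × (MM n × Ten n) => P p.2.2) :=
    hP.comp (contDiff_snd.comp contDiff_snd)
  have hP2 : ∀ i j m, ContDiff ℝ 1 (fun p : Ten n × (MM n × Ten n) => P p.2.2 i j m) := by
    intro i j m
    exact contDiff_pi.1 (contDiff_pi.1 (contDiff_pi.1 hP' i) j) m
  refine contDiff_fst.prodMk ?_
  refine contDiff_pi.2 fun i => contDiff_pi.2 fun j => contDiff_pi.2 fun l => ?_
  unfold Ph
  refine ContDiff.sub (ContDiff.sum fun m _ => ContDiff.mul ?_ ?_)
    (ContDiff.sum fun a _ => ContDiff.sum fun b _ => ?_)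
  · fun_prop
  · exact contDiff_const.add (hP2 i j m)
  · fun_prop

theorem FF_deriv (c : Ten n) (P : Ten n →ₗ[ℝ] Ten n) (u w : Ten n) (A : MM n) :
    fderiv ℝ (FF c P) (c, (0, 0)) (u, (A, w)) = (u, P w - u - dL c A) := by
  have hd : HasFDerivAt (FF c P) (fderiv ℝ (FF c P) (c, (0, 0))) (c, (0, 0)) :=
    ((FF_contDiff c P).differentiable (by simp) _).hasFDerivAt
  have h1 : HasDerivAt (fun t : ℝ => FF c P ((c, (0, 0)) + t • (u, (A, w))))
    (fderiv ℝ (FF c P) (c, (0, 0)) (u, (A, w))) 0 := hd.hasLineDerivAt (u, (A, w))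
  have hlin : ∀ a b : ℝ, HasDerivAt (fun t : ℝ => a + t * b) b 0 := fun a b => by
    simpa using ((hasDerivAt_id (0:ℝ)).mul_const b).const_add a
  have h2 : HasDerivAt (fun t : ℝ => FF c P ((c, (0, 0)) + t • (u, (A, w))))
      (u, P w - u - dL c A) 0 := by
    have he : (fun t : ℝ => FF c P ((c, (0, 0)) + t • (u, (A, w)))) =
        fun t : ℝ => ((fun i j l => c i j l + t * u i j l : Ten n), (fun i j l =>
          ∑ m, ((if l = m then 1 else 0) + t * A l m) * (c i j m + t * P w i j m) -
          ∑ a, ∑ b, (c a b l + t * u a b l) * ((if a = i then 1 else 0) + t * A a i) *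
            ((if b = j then 1 else 0) + t * A b j) : Ten n)) := by
      funext t
      refine Prod.ext ?_ ?_
      · funext i j l; simp [FF]
      · funext i j l; simp [FF, Ph]
    rw [he]
    refine HasDerivAt.prodMk ?_ ?_
    · exact hasDerivAt_pi.2 fun i => hasDerivAt_pi.2 fun j => hasDerivAt_pi.2 fun l => hlin _ _
    · refine hasDerivAt_pi.2 fun i => hasDerivAt_pi.2 fun j => hasDerivAt_pi.2 fun l => ?_
      have h3 := (HasDerivAt.fun_sum (u := Finset.univ) fun m (_ : m ∈ Finset.univ) =>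
        (hlin (if l = m then 1 else 0) (A l m)).mul (hlin (c i j m) (P w i j m))).sub
        (HasDerivAt.fun_sum (u := Finset.univ) fun a (_ : a ∈ Finset.univ) =>
          HasDerivAt.fun_sum (u := Finset.univ) fun b (_ : b ∈ Finset.univ) =>
          ((hlin (c a b l) (u a b l)).mul (hlin (if a = i then 1 else 0) (A a i))).mul
            (hlin (if b = j then 1 else 0) (A b j)))
      refine h3.congr_deriv ?_
      simp only [zero_mul, add_zero, mul_ite, ite_mul, mul_one, mul_zero, zero_mul, one_mul,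
        Finset.sum_add_distrib, Finset.sum_ite_eq, Finset.sum_ite_eq', Finset.mem_univ, if_true,
        add_mul]
      simp only [dL, LinearMap.coe_mk, AddHom.coe_mk, Pi.sub_apply, Pi.mul_apply, zero_mul, add_zero]
      have e : ∑ x, ∑ y, c x y l * (if x = i then 1 else 0) * A y j = ∑ b, A b j * c i b l := by
        rw [Finset.sum_comm]
        simp [mul_comm]
      rw [e]
      simp only [mul_comm (c _ _ _) (A _ _)]
      ring
  exact h1.unique h2

theorem FF_surj (c : Ten n) (P : Ten n →ₗ[ℝ] Ten n) (hP : ∀ t, ∃ A, t - P t = dL c A) :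
    (fderiv ℝ (FF c P) (c, (0, 0))).range = ⊤ := by
  rw [LinearMap.range_eq_top]
  rintro ⟨u, v⟩
  obtain ⟨A, hA⟩ := hP (v + u)
  refine ⟨(u, (-A, v + u)), ?_⟩
  show fderiv ℝ (FF c P) (c, (0, 0)) (u, (-A, v + u)) = (u, v)
  rw [FF_deriv, map_neg, ← hA]
  refine Prod.ext rfl ?_
  simp only; abel

/-- **[AD-2]** rigidity -/
theorem rigB : RigB := by
  intro n c hc hN
  obtain ⟨P, hP1, hP2⟩ := exists_proj (dL c)
  have hPP : ∀ t, P (P t) = P t := by
    intro t
    obtain ⟨A, hA⟩ := hP1 t
    have := hP2 A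
    rw [← hA, map_sub, sub_eq_zero] at this
    exact this.symm
  have hs := slice hc hN hP2
  have hF : HasStrictFDerivAt (FF c P) (fderiv ℝ (FF c P) (c, (0, 0))) (c, (0, 0)) :=
    (FF_contDiff c P).contDiffAt.hasStrictFDerivAt (by simp)
  have hmap := hF.map_nhds_eq_of_surj (FF_surj c P hP1)
  have hF0 : FF c P (c, (0, 0)) = (c, 0) := by
    refine Prod.ext rfl ?_
    funext i j l
    simp [FF, Ph]
  rw [hF0] at hmap
  -- the neighbourhood
  have hN1 : ∀ᶠ p : Ten n × (MM n × Ten n) in 𝓝 (c, (0, 0)), (1 + of p.2.1 : Mat n).det ≠ 0 := by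
    have hcont : Continuous fun p : Ten n × (MM n × Ten n) => (1 + of p.2.1 : Mat n).det := by
      refine Continuous.matrix_det ?_
      exact continuous_const.add (continuous_fst.comp continuous_snd)
    refine hcont.continuousAt.eventually_ne ?_
    simp
  have hN2 : ∀ᶠ p : Ten n × (MM n × Ten n) in 𝓝 (c, (0, 0)),
      IsLie (c + P p.2.2) → P (P p.2.2) = P p.2.2 → P p.2.2 = 0 := by
    have hcont : Continuous fun p : Ten n × (MM n × Ten n) => P p.2.2 :=
      P.toContinuousLinearMap.continuous.comp (continuous_snd.comp continuous_snd)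
    have ht : Tendsto (fun p : Ten n × (MM n × Ten n) => P p.2.2) (𝓝 (c, (0, 0))) (𝓝 0) := by
      have := hcont.tendsto (c, (0, 0))
      simpa using this
    exact ht.eventually hs
  have himg := image_mem_map (m := FF c P) (hN1.and hN2)
  rw [hmap] at himg
  have hpre : ∀ᶠ c' : Ten n in 𝓝 c, ((c', 0) : Ten n × Ten n) ∈
      FF c P '' {p | (1 + of p.2.1 : Mat n).det ≠ 0 ∧
        (IsLie (c + P p.2.2) → P (P p.2.2) = P p.2.2 → P p.2.2 = 0)} := by
    have ht : Tendsto (fun c' : Ten n => ((c', 0) : Ten n × Ten n)) (𝓝 c) (𝓝 (c, 0)) :=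
      (Continuous.prodMk_left 0).tendsto c
    exact ht.eventually himg
  filter_upwards [hpre] with c' hc' hLie
  obtain ⟨p, ⟨hdet, hsl⟩, hp⟩ := hc'
  set g : Mat n := 1 + of p.2.1 with hg
  set w : Ten n := P p.2.2 with hw
  have hp1 : p.1 = c' := congrArg Prod.fst hp
  have hp2 : Ph c P p = 0 := congrArg Prod.snd hp
  have hiso : ∀ x y, g *ᵥ br (c + w) x y = br c' (g *ᵥ x) (g *ᵥ y) := by
    have h : (brL (c + w)).compr₂ g.mulVecLin =
        ((brL c').comp g.mulVecLin).compl₂ g.mulVecLin := by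
      refine bil_ext fun i j => ?_
      funext l
      have h0 : Ph c P p i j l = 0 := congrFun (congrFun (congrFun hp2 i) j) l
      have e1 : (g *ᵥ br (c + w) (Pi.single i 1) (Pi.single j 1)) l =
          ∑ m, ((if l = m then 1 else 0) + p.2.1 l m) * (c i j m + w i j m) := by
        simp only [mulVec, dotProduct, br_single, hg, Matrix.add_apply, of_apply, Pi.add_apply,
          Matrix.one_apply]
      have e2 : br c' (g *ᵥ Pi.single i 1) (g *ᵥ Pi.single j 1) l =
          ∑ a, ∑ b, p.1 a b l * ((if a = i then 1 else 0) + p.2.1 a i) *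
            ((if b = j then 1 else 0) + p.2.1 b j) := by
        simp only [br, mulVec_single, hg, Matrix.add_apply, of_apply, Matrix.one_apply, hp1,
          Matrix.col_apply, MulOpposite.op_one, one_smul]
      show (g *ᵥ br (c + w) (Pi.single i 1) (Pi.single j 1)) l =
        br c' (g *ᵥ Pi.single i 1) (g *ᵥ Pi.single j 1) l
      rw [e1, e2]
      exact sub_eq_zero.1 h0
    intro x y
    exact congrArg (fun F : (Fin n → ℝ) →ₗ[ℝ] (Fin n → ℝ) →ₗ[ℝ] (Fin n → ℝ) => F x y) h
  have hinj : ∀ x y : Fin n → ℝ, g *ᵥ x = g *ᵥ y → x = y := by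
    intro x y hxy
    have := congrArg (g⁻¹ *ᵥ ·) hxy
    simpa [mulVec_mulVec, nonsing_inv_mul _ (isUnit_iff_ne_zero.2 hdet)] using this
  have hcw : IsLie (c + w) := by
    refine ⟨fun x y => hinj _ _ ?_, fun x y z => hinj _ _ ?_⟩
    · rw [mulVec_neg, hiso, hiso, hLie.anti]
    · rw [mulVec_add, hiso, hiso, hiso, hiso, hiso, hiso, hLie.jac]
  have hw0 : w = 0 := hsl hcw (hPP _)
  refine ⟨g, hdet, fun x y => ?_⟩
  have := hiso x y
  rwa [hw0, add_zero] at this

end Vale.Agent.P092.H381.Ad
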